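import Vale.Agent.P153.Bd5.B29

/-!
Uniform integer Lipschitz heights on the triangular lattice: the thermodynamic limit and its
scaling limit, the Gaussian free field on the plane modulo constants.
-/

namespace Vale.Agent.Results.P153.PlaneGFFFinite

open MeasureTheory ProbabilityTheory Filter Topology

/-- Neighbours in the triangular lattice; `(i, j)` stands for the point
`i (1, 0) + j (1/2, √3/2)` of the plane. -/
def Adj (x y : ℤ × ℤ) : Prop :=
  (y.1 - x.1, y.2 - x.2) ∈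
    ({(1, 0), (-1, 0), (0, 1), (0, -1), (1, -1), (-1, 1)} : Set (ℤ × ℤ))

/-- Rotation by 60 degrees about the origin. -/
def rot (v : ℤ × ℤ) : ℤ × ℤ := (-v.2, v.1 + v.2)

/-- Translation by `t`, followed by the subtraction of the new value at the origin. -/
def shift (t : ℤ × ℤ) (h : ℤ × ℤ → ℤ) : ℤ × ℤ → ℤ := fun x => h (x + t) - h t

/-- The complement of the finite set `D` is connected. -/
def CoConnected (D : Finset (ℤ × ℤ)) : Prop :=
  ∀ x y, x ∉ D → y ∉ D → Relation.ReflTransGen (fun u v => Adj u v ∧ v ∉ D) x y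

/-- Odd heights on `D` with steps `0, ±2` along the edges and with value `±1` at the boundary
vertices (those with a neighbour outside `D`); the value off `D` is a dummy. -/
def Heights (D : Finset (ℤ × ℤ)) : Set (ℤ × ℤ → ℤ) :=
  {h | (∀ x, Odd (h x)) ∧ (∀ x ∈ D, ∀ y ∈ D, Adj x y → |h x - h y| ≤ 2) ∧
    (∀ x ∈ D, (∃ y, Adj x y ∧ y ∉ D) → h x = 1 ∨ h x = -1) ∧ ∀ x, x ∉ D → h x = -1}

/-- The functions with the same differences as `a` on `B`. -/
def Pat (B : Finset (ℤ × ℤ)) (a : ℤ × ℤ → ℤ) : Set (ℤ × ℤ → ℤ) :=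
  {h | ∀ x ∈ B, ∀ y ∈ B, h x - h y = a x - a y}

/-- `P` is the local limit, modulo constants, of the uniform measures on `Heights (D n)`. -/
def IsLocalLimit (P : Measure (ℤ × ℤ → ℤ)) (D : ℕ → Finset (ℤ × ℤ)) : Prop :=
  ∀ (B : Finset (ℤ × ℤ)) (a : ℤ × ℤ → ℤ),
    Tendsto (fun n => ((Heights (D n) ∩ Pat B a).ncard : ℝ) / (Heights (D n)).ncard) atTop
      (𝓝 (P.real (Pat B a)))

/-- Gibbs property of the uniform model, modulo constants: two admissible odd patterns on `B` which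
agree off `A` (all neighbours of `A` being in `B`) are equally likely. -/
def GradientGibbs (P : Measure (ℤ × ℤ → ℤ)) : Prop :=
  ∀ (A B : Finset (ℤ × ℤ)) (a a' : ℤ × ℤ → ℤ), A ⊆ B → (∀ x ∈ A, ∀ y, Adj x y → y ∈ B) →
    (∀ x, Odd (a x)) → (∀ x, Odd (a' x)) →
    (∀ x ∈ B, ∀ y ∈ B, Adj x y → |a x - a y| ≤ 2) →
    (∀ x ∈ B, ∀ y ∈ B, Adj x y → |a' x - a' y| ≤ 2) → (∀ x ∈ B, x ∉ A → a x = a' x) →
    P (Pat B a) = P (Pat B a')

/-- `P` is invariant under `T`. -/
def Inv (P : Measure (ℤ × ℤ → ℤ)) (T : (ℤ × ℤ → ℤ) → ℤ × ℤ → ℤ) : Prop := P.map T = P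

/-- Expectation under `P`. -/
noncomputable def E (P : Measure (ℤ × ℤ → ℤ)) (W : (ℤ × ℤ → ℤ) → ℝ) : ℝ := ∫ h, W h ∂P

/-- The hat function of the origin (affine on the triangles), in lattice coordinates. -/
noncomputable def hat (s t : ℝ) : ℝ := max 0 (1 - max |s| (max |t| |s + t|))

/-- The extension of `h` to the plane, affine on each triangle of the lattice, at the point `z`. -/
noncomputable def interp (h : ℤ × ℤ → ℤ) (z : ℝ × ℝ) : ℝ :=
  ∑ᶠ v : ℤ × ℤ, (h v : ℝ) * hat (z.1 - z.2 / √3 - v.1) (2 * z.2 / √3 - v.2)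

/-- The field tested against `f`, on the lattice of mesh `δ`: the integral of `h_δ f`. -/
noncomputable def smear (h : ℤ × ℤ → ℤ) (δ : ℝ) (f : ℝ × ℝ → ℝ) : ℝ :=
  ∫ z : ℝ × ℝ, interp h (z.1 / δ, z.2 / δ) * f z

/-- Smooth compactly supported functions on the plane with integral zero. -/
def Test (f : ℝ × ℝ → ℝ) : Prop :=
  ContDiff ℝ ((⊤ : ℕ∞) : WithTop ℕ∞) f ∧ HasCompactSupport f ∧ ∫ x, f x = 0

/-- `G(x,y) = -(2π)⁻¹ log |x - y|`. -/
noncomputable def green (x y : ℝ × ℝ) : ℝ :=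
  -(2 * Real.pi)⁻¹ * Real.log (√((x.1 - y.1) ^ 2 + (x.2 - y.2) ^ 2))

/-- Covariance of the Gaussian free field on the plane modulo constants. -/
noncomputable def gffCov (f g : ℝ × ℝ → ℝ) : ℝ := ∫ x, ∫ y, green x y * f x * g y

/-- Euclidean length of the lattice vector `x`. -/
noncomputable def len (x : ℤ × ℤ) : ℝ := √((x.1 : ℝ) ^ 2 + x.1 * x.2 + (x.2 : ℝ) ^ 2)

/-- Under `μ δ`, the joint law of the `smear h δ (f j)` tends as `δ → 0` to the centred Gaussian law
with covariance `κ * gffCov (f i) (f j)`, for all finite families of test functions. -/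
def Converges (κ : ℝ) (μ : ℝ → Measure (ℤ × ℤ → ℤ)) (_ : ∀ δ, IsProbabilityMeasure (μ δ)) : Prop :=
  ∀ (m : ℕ) (f : Fin m → ℝ × ℝ → ℝ), (∀ j, Test (f j)) →
    (Matrix.of (fun i j => κ * gffCov (f i) (f j))).PosSemidef ∧
    TendstoInDistribution (fun (δ : ℝ) (h : ℤ × ℤ → ℤ) =>
      (WithLp.toLp 2 (fun j => smear h δ (f j)) : EuclideanSpace ℝ (Fin m))) (𝓝[>] 0)
      (id : EuclideanSpace ℝ (Fin m) → EuclideanSpace ℝ (Fin m)) μ
      (multivariateGaussian 0 (Matrix.of (fun i j => κ * gffCov (f i) (f j))))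

/-- Bounded measurable even functions of the heights in `B`. -/
def EvenLocal (B : Finset (ℤ × ℤ)) (W : (ℤ × ℤ → ℤ) → ℝ) : Prop :=
  Measurable W ∧ (∃ M, ∀ h, |W h| ≤ M) ∧ (∀ h, W (-h) = W h) ∧
    ∀ h h', (∀ x ∈ B, h x = h' x) → W h = W h'

/-- The thermodynamic limit `P` of the uniform odd heights (along all exhausting sequences of
finite domains with connected complement), its symmetries and mixing property, the asymptotics of
the variance, and the convergence in law to the Gaussian free field: under `P`, and for the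
uniform heights on finite domains `D δ`, provided that `D δ` contains a certain finite set `R δ`. -/
theorem result : ∃ P : Measure (ℤ × ℤ → ℤ), ∃ hP : IsProbabilityMeasure P,
    (∀ᵐ h ∂P, h 0 = 0) ∧
    (∀ D : ℕ → Finset (ℤ × ℤ), (∀ n, CoConnected (D n)) → (∀ x, ∀ᶠ n in atTop, x ∈ D n) →
      IsLocalLimit P D) ∧
    GradientGibbs P ∧
    (∀ t, Inv P (shift t)) ∧ Inv P (fun h x => h (rot x)) ∧ Inv P (fun h x => h (x.2, x.1)) ∧
    (∀ B W W', EvenLocal B W → EvenLocal B W' →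
      Tendsto (fun t => E P fun h => W h * W' (shift t h)) cofinite (𝓝 (E P W * E P W'))) ∧
    ∃ κ : ℝ, 0 ≤ κ ∧
      Tendsto (fun x => (E P fun h => (h x : ℝ) ^ 2) / Real.log (len x)) cofinite
        (𝓝 (κ / Real.pi)) ∧
      Converges κ (fun _ => P) (fun _ => hP) ∧
      ∃ hU : ∀ D : Finset (ℤ × ℤ), IsProbabilityMeasure (uniformOn (Heights D)),
      ∃ R : ℝ → Finset (ℤ × ℤ),
      ∀ D : ℝ → Finset (ℤ × ℤ), (∀ δ, R δ ⊆ D δ) → (∀ δ, CoConnected (D δ)) →
        Converges κ (fun δ => uniformOn (Heights (D δ))) (fun δ => hU (D δ)) :=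
  Vale.Agent.P153.GFF.main_shape

end Vale.Agent.Results.P153.PlaneGFFFinite
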