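import Vale.Agent.P153.Bd5.B29

/-!
Uniform integer Lipschitz heights on the triangular lattice: convergence to the Gaussian free
field in the plane (modulo constants) and in bounded Jordan domains (boundary values `±1`).
-/

namespace Vale.Agent.Results.P153.PlaneJordanGFF

open MeasureTheory ProbabilityTheory Filter Topology

/-- Laws of random heights. -/
abbrev Law := Measure (ℤ × ℤ → ℤ)

/-- Neighbours in the triangular lattice; `(i, j)` stands for the point
`i (1, 0) + j (1/2, √3/2)` of the plane. -/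
def Adj (x y : ℤ × ℤ) : Prop :=
  (y.1 - x.1, y.2 - x.2) ∈
    ({(1, 0), (-1, 0), (0, 1), (0, -1), (1, -1), (-1, 1)} : Set (ℤ × ℤ))

/-- The complement of the finite set `D` is connected. -/
def CoConnected (D : Finset (ℤ × ℤ)) : Prop :=
  ∀ x y, x ∉ D → y ∉ D → Relation.ReflTransGen (fun u v => Adj u v ∧ v ∉ D) x y

/-- Odd heights on `D` with steps `0, ±2` along the edges and with value `±1` at the boundary
vertices (those with a neighbour outside `D`); the value off `D` is a dummy. -/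
def HeightsOn (D : Finset (ℤ × ℤ)) : Set (ℤ × ℤ → ℤ) :=
  {h | (∀ x, Odd (h x)) ∧ (∀ x ∈ D, ∀ y ∈ D, Adj x y → |h x - h y| ≤ 2) ∧
    (∀ x ∈ D, (∃ y, Adj x y ∧ y ∉ D) → h x = 1 ∨ h x = -1) ∧ ∀ x, x ∉ D → h x = -1}

/-- The functions with the same differences as `a` on `B`. -/
def Pat (B : Finset (ℤ × ℤ)) (a : ℤ × ℤ → ℤ) : Set (ℤ × ℤ → ℤ) :=
  {h | ∀ x ∈ B, ∀ y ∈ B, h x - h y = a x - a y}

/-- `P` is the local limit, modulo constants, of the uniform measures on `HeightsOn (D n)`. -/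
def IsLocalLimit (P : Law) (D : ℕ → Finset (ℤ × ℤ)) : Prop :=
  ∀ (B : Finset (ℤ × ℤ)) (a : ℤ × ℤ → ℤ),
    Tendsto (fun n => ((HeightsOn (D n) ∩ Pat B a).ncard : ℝ) / (HeightsOn (D n)).ncard) atTop
      (𝓝 (P.real (Pat B a)))

/-- The hat function of the origin (affine on the triangles), in lattice coordinates. -/
noncomputable def hat (s t : ℝ) : ℝ := max 0 (1 - max |s| (max |t| |s + t|))

/-- The extension of `h` to the plane, affine on each triangle of the lattice, at the point `z`. -/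
noncomputable def interp (h : ℤ × ℤ → ℤ) (z : ℝ × ℝ) : ℝ :=
  ∑ᶠ v : ℤ × ℤ, (h v : ℝ) * hat (z.1 - z.2 / √3 - v.1) (2 * z.2 / √3 - v.2)

/-- The field tested against `f`, on the lattice of mesh `δ`: the integral of `h_δ f`. -/
noncomputable def smear (h : ℤ × ℤ → ℤ) (δ : ℝ) (f : ℝ × ℝ → ℝ) : ℝ :=
  ∫ z : ℝ × ℝ, interp h (z.1 / δ, z.2 / δ) * f z

/-- Smooth functions with compact support contained in `D`. -/
def TestOn (D : Set (ℝ × ℝ)) (φ : ℝ × ℝ → ℝ) : Prop :=
  ContDiff ℝ ((⊤ : ℕ∞) : WithTop ℕ∞) φ ∧ HasCompactSupport φ ∧ tsupport φ ⊆ D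

/-- `G(x,y) = -(2π)⁻¹ log |x - y|`. -/
noncomputable def green (x y : ℝ × ℝ) : ℝ :=
  -(2 * Real.pi)⁻¹ * Real.log (√((x.1 - y.1) ^ 2 + (x.2 - y.2) ^ 2))

/-- Variance of the Gaussian free field on the plane modulo constants. -/
noncomputable def gffVar (f : ℝ × ℝ → ℝ) : ℝ := ∫ x, ∫ y, green x y * f x * f y

/-- Euclidean length of the lattice vector `x`. -/
noncomputable def len (x : ℤ × ℤ) : ℝ := √((x.1 : ℝ) ^ 2 + x.1 * x.2 + (x.2 : ℝ) ^ 2)

/-- Convergence in law of the random variables `X i` (under `μ i`) to the centred Gaussian law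
with variance `v`. -/
def ToGauss {ι : Type} (l : Filter ι) (μ : ι → Law) (_ : ∀ i, IsProbabilityMeasure (μ i))
    (X : ι → (ℤ × ℤ → ℤ) → ℝ) (v : ℝ) : Prop :=
  0 ≤ v ∧ TendstoInDistribution X l id μ (gaussianReal 0 v.toNNReal)

/-! ### Jordan domains -/

/-- A bounded Jordan domain: the image of the open unit disc under a homeomorphism of the plane
(by the theorem of Schoenflies these are exactly the interiors of Jordan curves). -/
def JordanDomain (D : Set (ℝ × ℝ)) : Prop := 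
  ∃ Φ : (ℝ × ℝ) ≃ₜ (ℝ × ℝ), D = Φ '' {z | z.1 ^ 2 + z.2 ^ 2 < 1}

/-- `∫ |∇ψ|²`. -/
noncomputable def energy (ψ : ℝ × ℝ → ℝ) : ℝ :=
  ∫ z, (fderiv ℝ ψ z (1, 0) ^ 2 + fderiv ℝ ψ z (0, 1) ^ 2)

/-- `⟨φ, (-Δ_D)⁻¹ φ⟩ = sup_ψ (2 ∫ φ ψ - ∫ |∇ψ|²)`, `ψ` smooth with compact support in `D`. -/
noncomputable def V (D : Set (ℝ × ℝ)) (φ : ℝ × ℝ → ℝ) : ℝ :=
  ⨆ ψ : {ψ // TestOn D ψ}, (2 * ∫ z, φ z * ψ.1 z) - energy ψ.1

/-- The triangles of the lattice: `(v, false)` has the corners `v, v + (1, 0), v + (0, 1)`;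
`(v, true)` has the corners `v + (1, 0), v + (0, 1), v + (1, 1)`. -/
abbrev Tri := (ℤ × ℤ) × Bool

/-- A simple closed lattice polygon `p 0, p 1, …, p (n - 1), p 0`. -/
def IsPolygon {n : ℕ} (p : ZMod n → ℤ × ℤ) : Prop :=
  2 < n ∧ Function.Injective p ∧ ∀ i, Adj (p i) (p (i + 1))

/-- The edge between the lattice points `a` and `b` is an edge of the polygon `p`. -/
def IsEdge {n : ℕ} (p : ZMod n → ℤ × ℤ) (a b : ℤ × ℤ) : Prop :=
  ∃ i, (p i = a ∧ p (i + 1) = b) ∨ (p i = b ∧ p (i + 1) = a)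

/-- The finite set `S` of triangles is the set of the triangles enclosed by the polygon `p`: the
edges of `p` are exactly the edges of the lattice with exactly one of their two sides in `S`. -/
def Encloses {n : ℕ} (p : ZMod n → ℤ × ℤ) (S : Finset Tri) : Prop :=
  (∀ v : ℤ × ℤ, IsEdge p v (v + (1, 0)) ↔ ¬ ((v, false) ∈ S ↔ (v - (0, 1), true) ∈ S)) ∧
  (∀ v : ℤ × ℤ, IsEdge p v (v + (0, 1)) ↔ ¬ ((v, false) ∈ S ↔ (v - (1, 0), true) ∈ S)) ∧
  (∀ v : ℤ × ℤ, IsEdge p (v + (1, 0)) (v + (0, 1)) ↔ ¬ ((v, false) ∈ S ↔ (v, true) ∈ S))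

/-- The corners of a triangle. -/
def corners (t : Tri) : Finset (ℤ × ℤ) :=
  if t.2 then {t.1 + (1, 0), t.1 + (0, 1), t.1 + (1, 1)}
  else {t.1, t.1 + (1, 0), t.1 + (0, 1)}

/-- The vertices of the domain: the corners of the enclosed triangles. -/
def verts (S : Finset Tri) : Finset (ℤ × ℤ) := S.biUnion corners

/-- The heights of the domain enclosed by `p`: odd, with steps `0` or `±2` between adjacent
vertices, with values `±1` on the polygon (and the dummy value `0` off the domain). -/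
def Heights {n : ℕ} (p : ZMod n → ℤ × ℤ) (S : Finset Tri) : Set (ℤ × ℤ → ℤ) :=
  {h | (∀ v ∈ verts S, Odd (h v)) ∧ (∀ i, h (p i) = 1 ∨ h (p i) = -1) ∧
    (∀ v ∈ verts S, ∀ w ∈ verts S, Adj v w → |h v - h w| = 0 ∨ |h v - h w| = 2) ∧
    ∀ v, v ∉ verts S → h v = 0}

/-- The uniform distribution on the heights. -/
noncomputable def law {n : ℕ} (p : ZMod n → ℤ × ℤ) (S : Finset Tri) : Law := uniformOn (Heights p S)

/-- The point of the plane. -/
noncomputable def pt (v : ℤ × ℤ) : ℝ × ℝ := (v.1 + v.2 / 2, √3 / 2 * v.2)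

/-- The closed domain `D_δ`: the union of the enclosed triangles of the lattice of mesh `δ`. -/
noncomputable def region (δ : ℝ) (S : Finset Tri) : Set (ℝ × ℝ) :=
  {z | ∃ t ∈ S, z ∈ convexHull ℝ ((fun v => δ • pt v) '' (corners t : Set (ℤ × ℤ)))}

open Classical in
/-- `h_δ(φ) = ∫ h_δ(z) φ(z) dz`, where `h_δ` is affine on each triangle of `D_δ` and is extended by
`0` outside `D_δ`. -/
noncomputable def fld (S : Finset Tri) (δ : ℝ) (φ : ℝ × ℝ → ℝ) (h : ℤ × ℤ → ℤ) : ℝ :=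
  ∫ z : ℝ × ℝ, (if z ∈ region δ S then interp h (z.1 / δ, z.2 / δ) else 0) * φ z

/-- Lattice polygons `p n` of mesh `δ n → 0` approximating the domain `D`: the vertices of the
polygons are eventually within any given distance of `D`, and every compact subset of `D` is
eventually enclosed. (Both follow from the uniform convergence of the boundary curves.) -/
def Approx (D : Set (ℝ × ℝ)) (δ : ℕ → ℝ) (N : ℕ → ℕ) (p : ∀ n, ZMod (N n) → ℤ × ℤ)
    (S : ℕ → Finset Tri) : Prop :=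
  (∀ n, 0 < δ n ∧ IsPolygon (p n) ∧ Encloses (p n) (S n)) ∧ Tendsto δ atTop (𝓝 0) ∧
  (∀ ε > 0, ∀ᶠ n in atTop, ∀ i, ∃ z ∈ D, dist (δ n • pt (p n i)) z < ε) ∧
  ∀ K ⊆ D, IsCompact K → ∀ᶠ n in atTop, K ⊆ region (δ n) (S n)

/-- The thermodynamic limit `P` of the uniform odd heights (along all exhausting sequences of
finite domains with connected complement), the asymptotics `κ` of its variance, the convergence in
law to the Gaussian free field of the plane modulo constants, and, if `0 < κ`, the convergence in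
law to the Dirichlet Gaussian free field in all bounded Jordan domains. -/
theorem result : ∃ P : Law, ∃ hP : IsProbabilityMeasure P,
    (∀ᵐ h ∂P, h 0 = 0) ∧
    (∀ D : ℕ → Finset (ℤ × ℤ), (∀ n, CoConnected (D n)) → (∀ x, ∀ᶠ n in atTop, x ∈ D n) →
      IsLocalLimit P D) ∧
    ∃ κ : ℝ, 0 ≤ κ ∧
      Tendsto (fun x => (∫ h, (h x : ℝ) ^ 2 ∂P) / Real.log (len x)) cofinite
        (𝓝 (κ / Real.pi)) ∧
      (∀ f : ℝ × ℝ → ℝ, TestOn Set.univ f → ∫ x, f x = 0 →
        ToGauss (𝓝[>] 0) (fun _ => P) (fun _ => hP) (fun δ h => smear h δ f) (κ * gffVar f)) ∧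
      (0 < κ → ∀ D : Set (ℝ × ℝ), JordanDomain D → ∀ (δ : ℕ → ℝ) (N : ℕ → ℕ)
        (p : ∀ n, ZMod (N n) → ℤ × ℤ) (S : ℕ → Finset Tri), Approx D δ N p S →
        ∃ hL : ∀ n, IsProbabilityMeasure (law (p n) (S n)), ∀ φ, TestOn D φ →
          ToGauss atTop (fun n => law (p n) (S n)) hL (fun n => fld (S n) (δ n) φ)
            (κ * V D φ)) :=
  Vale.Agent.P153.JG.main

end Vale.Agent.Results.P153.PlaneJordanGFF
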